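import Vale.Agent.P133.PartGL
import Vale.Agent.P133.PartTO

namespace Vale.Agent.Results.P133.PrimeControlled

open Vale.Agent.P133

theorem result (C : Type) [NonUnitalCStarAlgebra C] [PartialOrder C] [StarOrderedRing C]
    (h : FinitelyPrimeControlled C ∨ ∀ I I' : TwoSidedIdeal C,
      IsClosed (I : Set C) → IsClosed (I' : Set C) → I ≤ I' ∨ I' ≤ I) :
    (WeaklyPurelyInfinite C → PurelyInfinite C) ∧ (PurelyInfinite C → StronglyPurelyInfinite C) :=
  main C (h.elim id (fp_of_total C))

end Vale.Agent.Results.P133.PrimeControlled
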